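import Vale.Agent.P359.Laughlin.Poly
import Vale.Agent.P359.Pairs.Antisym
import Vale.Agent.P359.Pairs.Spin

/-!
P359: at flux `Q = 3 (N - 1)` the fermionic zero states of the pseudopotential are the multiples
of the Laughlin vector.
-/

noncomputable section

namespace Vale.Agent.P359.Laughlin

open MvPolynomial Finset Matrix Pairs

variable {N Q : ℕ}

/-- The exponents of a configuration. -/
def toExp (x : Fin N → Fin (Q + 1)) : Fin N →₀ ℕ :=
  Finsupp.equivFunOnFinite.symm fun k => (x k : ℕ)

/-- The normalisation of the monomials. -/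
def weight (x : Fin N → Fin (Q + 1)) : ℂ := ∏ k, (Real.sqrt (Q.choose (x k : ℕ)) : ℂ)

/-- The polynomial of a state. -/
def toPoly (v : (Fin N → Fin (Q + 1)) → ℂ) : Pol N :=
  ∑ x, monomial (toExp x) (v x * weight x)

/-- The Laughlin vector `∏ (u i v j - u j v i) ^ 3` at flux `Q`, in the orthonormal monomials. -/
def laughlin (N Q : ℕ) : (Fin N → Fin (Q + 1)) → ℂ :=
  fun x => coeff (toExp x) (cubes N) / weight x

@[simp] theorem toExp_apply (x : Fin N → Fin (Q + 1)) (k : Fin N) : toExp x k = (x k : ℕ) := by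
  simp [toExp]

theorem toExp_injective : Function.Injective (toExp : (Fin N → Fin (Q + 1)) → Fin N →₀ ℕ) := by
  intro x y h
  funext k
  have := congrArg (fun d : Fin N →₀ ℕ => d k) h
  simp only [toExp_apply] at this
  exact Fin.ext this

theorem sqrt_choose_ne_zero (a : Fin (Q + 1)) : (Real.sqrt (Q.choose (a : ℕ)) : ℂ) ≠ 0 :=
  Complex.ofReal_ne_zero.2 (Real.sqrt_ne_zero'.2 (Nat.cast_pos.2 (Nat.choose_pos (by omega))))

theorem weight_ne_zero (x : Fin N → Fin (Q + 1)) : weight x ≠ 0 :=
  Finset.prod_ne_zero_iff.2 fun k _ => sqrt_choose_ne_zero (x k)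

theorem coeff_toPoly (v : (Fin N → Fin (Q + 1)) → ℂ) (x : Fin N → Fin (Q + 1)) :
    coeff (toExp x) (toPoly v) = v x * weight x := by
  classical
  rw [toPoly, coeff_sum, Finset.sum_eq_single x]
  · simp
  · intro y _ hy
    rw [coeff_monomial, if_neg (toExp_injective.ne hy)]
  · simp

theorem degreeOf_toPoly (v : (Fin N → Fin (Q + 1)) → ℂ) (k : Fin N) :
    degreeOf k (toPoly v) ≤ Q := by
  classical
  rw [degreeOf_eq_sup]
  refine Finset.sup_le fun m hm => ?_
  obtain ⟨x, -, hx⟩ : ∃ x ∈ (univ : Finset (Fin N → Fin (Q + 1))), toExp x = m := by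
    by_contra h
    push Not at h
    refine (mem_support_iff.1 hm) ?_
    rw [toPoly, coeff_sum]
    exact Finset.sum_eq_zero fun x hx => by rw [coeff_monomial, if_neg (h x hx)]
  rw [← hx, toExp_apply]
  omega

theorem toPoly_coeff {f : Pol N} (hf : ∀ k, degreeOf k f ≤ Q) :
    toPoly (fun x : Fin N → Fin (Q + 1) => coeff (toExp x) f / weight x) = f := by
  classical
  refine MvPolynomial.ext _ _ fun m => ?_
  by_cases hm : ∀ k, m k ≤ Q
  · obtain ⟨x, rfl⟩ : ∃ x : Fin N → Fin (Q + 1), toExp x = m :=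
      ⟨fun k => ⟨m k, Nat.lt_succ_of_le (hm k)⟩, Finsupp.ext fun k => by simp⟩
    rw [coeff_toPoly, div_mul_cancel₀ _ (weight_ne_zero x)]
  · push Not at hm
    obtain ⟨k, hk⟩ := hm
    have h0 : ∀ g : Pol N, degreeOf k g ≤ Q → coeff m g = 0 := fun g hg => by
      by_contra h
      rw [degreeOf_eq_sup] at hg
      have := (Finset.le_sup (f := fun m : Fin N →₀ ℕ => m k) (mem_support_iff.2 h)).trans hg
      omega
    rw [h0 _ (degreeOf_toPoly _ k), h0 f (hf k)]

theorem mapDomain_toExp_perm (σ : Equiv.Perm (Fin N)) (x : Fin N → Fin (Q + 1)) :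
    Finsupp.mapDomain σ (toExp (x ∘ σ)) = toExp x := by
  refine Finsupp.ext fun k => ?_
  obtain ⟨l, rfl⟩ := σ.surjective k
  rw [Finsupp.mapDomain_apply σ.injective]
  simp

theorem weight_perm (σ : Equiv.Perm (Fin N)) (x : Fin N → Fin (Q + 1)) :
    weight (x ∘ σ) = weight x :=
  Equiv.prod_comp σ fun k => (Real.sqrt (Q.choose (x k : ℕ)) : ℂ)

theorem rename_toPoly {v : (Fin N → Fin (Q + 1)) → ℂ} (hv : IsAntisym v)
    (σ : Equiv.Perm (Fin N)) :
    rename σ (toPoly v) = C ((Equiv.Perm.sign σ : ℤ) : ℂ) * toPoly v := by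
  rw [toPoly, map_sum, Finset.mul_sum, ← (relabel σ).sum_comp]
  refine Finset.sum_congr rfl fun x _ => ?_
  rw [relabel_apply, rename_monomial, mapDomain_toExp_perm, C_mul_monomial, weight_perm, hv σ x,
    mul_assoc]

theorem cubes_eq_det : cubes N = (Matrix.vandermonde fun k => (X k : Pol N)).det ^ 3 := by
  rw [Matrix.det_vandermonde, ← Finset.prod_pow, cubes, ordPairs, Finset.prod_filter,
    Fintype.prod_prod_type]
  refine Finset.prod_congr rfl fun a _ => ?_
  rw [← Finset.prod_filter, ← Finset.prod_pow]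
  refine Finset.prod_congr ?_ fun b _ => rfl
  ext b; simp

theorem rename_cubes (σ : Equiv.Perm (Fin N)) :
    rename σ (cubes N) = C ((Equiv.Perm.sign σ : ℤ) : ℂ) * cubes N := by
  have h : (rename σ).mapMatrix (Matrix.vandermonde fun k => (X k : Pol N)) =
      (Matrix.vandermonde fun k => (X k : Pol N)).submatrix σ id := by
    ext a b; simp [Matrix.vandermonde_apply]
  rw [cubes_eq_det, map_pow, AlgHom.map_det, h, Matrix.det_permute, mul_pow]
  rcases Int.units_eq_one_or (Equiv.Perm.sign σ) with e | e <;> (simp [e]; try norm_num)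

theorem laughlin_antisym : IsAntisym (laughlin N Q) := by
  intro σ x
  simp only [laughlin, weight_perm]
  have e := coeff_rename_mapDomain (σ : Fin N → Fin N) σ.injective (cubes N) (toExp (x ∘ σ))
  rw [mapDomain_toExp_perm, rename_cubes, coeff_C_mul] at e
  rw [← e, mul_div_assoc]

theorem toPoly_laughlin (hQ : 3 * (N - 1) ≤ Q) : toPoly (laughlin N Q) = cubes N :=
  toPoly_coeff fun k => (degreeOf_cubes k).le.trans hQ

theorem laughlin_ne_zero (hQ : 3 * (N - 1) ≤ Q) : laughlin N Q ≠ 0 := by
  intro h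
  have := toPoly_laughlin (N := N) (Q := Q) hQ
  rw [h] at this
  exact cubes_ne_zero (this.symm.trans (by simp [toPoly]))

/-- The pair sum of weight `x i + x j`. -/
def pairSum (v : (Fin N → Fin (Q + 1)) → ℂ) (i j : Fin N) (x : Fin N → Fin (Q + 1)) : ℂ :=
  ∑ ab, if wsum ab = wsum (x i, x j) then (amp ab : ℂ) * v (put i j x ab) else 0

theorem pairMat_mulVec {i j : Fin N} (hij : i ≠ j) (v : (Fin N → Fin (Q + 1)) → ℂ)
    (x : Fin N → Fin (Q + 1)) :
    (pairMat (spinProj Q) i j *ᵥ v) x =
      ((amp (x i, x j) / spinNorm Q (wsum (x i, x j)) : ℝ) : ℂ) * pairSum v i j x := by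
  simp only [mulVec, dotProduct, pairMat_apply, ite_mul, zero_mul]
  rw [sum_agree hij x, pairSum, Finset.mul_sum]
  refine Finset.sum_congr rfl fun ab _ => ?_
  simp only [put_left hij, put_right, spinProj, Matrix.of_apply]
  by_cases h : wsum (x i, x j) = wsum ab
  · rw [if_pos h, if_pos h.symm]
    push_cast
    ring
  · rw [if_neg h, if_neg (Ne.symm h), zero_mul, mul_zero]

theorem pairSum_eq_zero {i j : Fin N} (hij : i ≠ j) {v : (Fin N → Fin (Q + 1)) → ℂ}
    (h : pairMat (spinProj Q) i j *ᵥ v = 0) (x : Fin N → Fin (Q + 1)) : pairSum v i j x = 0 := by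
  by_cases hx : ∀ ab : Fin (Q + 1) × Fin (Q + 1), wsum ab = wsum (x i, x j) → amp ab = 0
  · refine Finset.sum_eq_zero fun ab _ => ?_
    split_ifs with hab
    · simp [hx ab hab]
    · rfl
  push Not at hx
  obtain ⟨pr, hw, hne⟩ := hx
  have h' := congrFun h (put i j x pr)
  rw [pairMat_mulVec hij, put_left hij, put_right, Pi.zero_apply] at h'
  have hn : spinNorm Q (wsum pr) ≠ 0 := fun e => hne (amp_eq_zero_of_norm e rfl)
  have h'' := (mul_eq_zero.1 h').resolve_left (Complex.ofReal_ne_zero.2 (div_ne_zero hne hn))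
  have e : ∀ ab, put i j (put i j x pr) ab = put i j x ab := fun ab => by
    funext k
    by_cases hj : k = j
    · subst hj; simp [put_right]
    by_cases hi : k = i
    · subst hi; simp [put_left hij]
    simp [put_other hi hj]
  simpa [pairSum, put_left hij, put_right, hw, e] using h''

theorem mapDomain_merge {i j : Fin N} (hij : i ≠ j) (x : Fin N → Fin (Q + 1)) (k : Fin N) :
    Finsupp.mapDomain (Function.update id i j) (toExp x) k =
      if k = i then 0 else if k = j then wsum (x i, x j) else (x k : ℕ) := by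
  classical
  simp only [Finsupp.mapDomain, Finsupp.sum_apply, Finsupp.single_apply]
  rw [Finsupp.sum_fintype _ _ (fun _ => by simp)]
  simp only [toExp_apply]
  split_ifs with hi hj
  · refine Finset.sum_eq_zero fun a _ => ?_
    rw [if_neg]
    by_cases ha : a = i
    · subst ha; subst hi; simp [hij.symm]
    · subst hi; simp [ha]
  · subst hj
    rw [Fintype.sum_eq_add i k hij]
    · simp [wsum, hij.symm]
    · rintro a ⟨ha, hb⟩
      simp [ha, hb]
  · rw [Fintype.sum_eq_single k]
    · simp [hi]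
    · intro a ha
      by_cases hai : a = i
      · subst hai; simp [Ne.symm hj]
      · simp [hai, ha]

theorem merge_energy {i j : Fin N} (v : (Fin N → Fin (Q + 1)) → ℂ) :
    merge i j (X i * pderiv i (toPoly v) - X j * pderiv j (toPoly v)) =
      ∑ x, monomial (Finsupp.mapDomain (Function.update id i j) (toExp x))
        (v x * weight x * (((x i : ℕ) : ℂ) - ((x j : ℕ) : ℂ))) := by
  simp only [toPoly, map_sum, Finset.mul_sum, ← Finset.sum_sub_distrib]
  refine Finset.sum_congr rfl fun x _ => ?_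
  rw [X_mul_pderiv_monomial, X_mul_pderiv_monomial, merge, map_sub]
  simp only [rename_monomial, toExp_apply, smul_monomial, nsmul_eq_mul]
  rw [← map_sub]
  congr 1
  ring

theorem coeff_merge_energy {i j : Fin N} (hij : i ≠ j) (v : (Fin N → Fin (Q + 1)) → ℂ)
    (x : Fin N → Fin (Q + 1)) :
    coeff (Finsupp.mapDomain (Function.update id i j) (toExp x))
        (merge i j (X i * pderiv i (toPoly v) - X j * pderiv j (toPoly v))) =
      -(∏ k ∈ (univ.erase i).erase j, (Real.sqrt (Q.choose (x k : ℕ)) : ℂ)) *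
        pairSum v i j x := by
  classical
  rw [merge_energy, coeff_sum]
  simp only [coeff_monomial]
  have key : ∀ z : Fin N → Fin (Q + 1),
      Finsupp.mapDomain (Function.update id i j) (toExp z) =
          Finsupp.mapDomain (Function.update id i j) (toExp x) ↔
        Agree i j x z ∧ wsum (z i, z j) = wsum (x i, x j) := by
    intro z
    constructor
    · intro h
      have e := fun k => congrArg (fun d : Fin N →₀ ℕ => d k) h
      simp only [mapDomain_merge hij] at e
      refine ⟨fun k hi hj => Fin.ext ?_, ?_⟩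
      · have := e k
        simp only [if_neg hi, if_neg hj] at this
        exact this.symm
      · simpa [hij.symm] using e j
    · rintro ⟨ha, hw⟩
      refine Finsupp.ext fun k => ?_
      simp only [mapDomain_merge hij]
      split_ifs with hi hj
      · rfl
      · exact hw
      · rw [ha k hi hj]
  simp only [key, ite_and]
  rw [sum_agree hij x, pairSum, Finset.mul_sum]
  refine Finset.sum_congr rfl fun ab _ => ?_
  rw [put_left hij, put_right]
  by_cases h : wsum (ab.1, ab.2) = wsum (x i, x j)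
  · rw [if_pos h, if_pos h, weight]
    have hji : j ∈ univ.erase i := mem_erase.2 ⟨hij.symm, mem_univ j⟩
    rw [← Finset.mul_prod_erase univ _ (mem_univ i), ← Finset.mul_prod_erase _ _ hji, put_left hij,
      put_right, Finset.prod_congr rfl fun k hk => by
        rw [put_other (mem_erase.1 (mem_erase.1 hk).2).1 (mem_erase.1 hk).1]]
    simp only [amp]
    rw [Real.sqrt_mul (Nat.cast_nonneg _)]
    push_cast
    ring
  · rw [if_neg h, if_neg h, mul_zero]

theorem pairMat_mulVec_eq_zero {v : (Fin N → Fin (Q + 1)) → ℂ}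
    (h : ham (spinProj Q) N *ᵥ v = 0) {i j : Fin N} (hij : i < j) :
    pairMat (spinProj Q) i j *ᵥ v = 0 := by
  have hP := spinProj_isPairProj Q
  have e : ∀ p : Pair N, qform (pairOp (spinProj Q) p) v =
      star (pairOp (spinProj Q) p *ᵥ v) ⬝ᵥ (pairOp (spinProj Q) p *ᵥ v) := fun p => by
    rw [qform, star_mulVec, ← dotProduct_mulVec, mulVec_mulVec, pairOp_hermitian hP,
      pairOp_idem hP]
  have h0 : ∑ p : Pair N, qform (pairOp (spinProj Q) p) v = 0 := by
    rw [← qform_sum]
    show qform (ham (spinProj Q) N) v = 0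
    rw [qform, h, dotProduct_zero]
  simp only [e] at h0
  open ComplexOrder in
  exact dotProduct_star_self_eq_zero.1 ((Finset.sum_eq_zero_iff_of_nonneg
    (fun p _ => dotProduct_star_self_nonneg _)).1 h0 ⟨(i, j), hij⟩ (mem_univ _))

theorem merge_energy_eq_zero {v : (Fin N → Fin (Q + 1)) → ℂ}
    (h : ham (spinProj Q) N *ᵥ v = 0) {i j : Fin N} (hij : i < j) :
    merge i j (X i * pderiv i (toPoly v) - X j * pderiv j (toPoly v)) = 0 := by
  classical
  refine MvPolynomial.ext _ _ fun m => ?_
  rw [coeff_zero]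
  by_cases hm : ∃ x : Fin N → Fin (Q + 1),
      Finsupp.mapDomain (Function.update id i j) (toExp x) = m
  · obtain ⟨x, rfl⟩ := hm
    rw [coeff_merge_energy hij.ne,
      pairSum_eq_zero hij.ne (pairMat_mulVec_eq_zero h hij), mul_zero]
  · rw [merge_energy, coeff_sum]
    exact Finset.sum_eq_zero fun x _ => by
      rw [coeff_monomial, if_neg fun e => hm ⟨x, e⟩]

theorem ham_mulVec_laughlin (hQ : 3 * (N - 1) ≤ Q) :
    ham (spinProj Q) N *ᵥ laughlin N Q = 0 := by
  rw [ham, Matrix.sum_mulVec]
  refine Finset.sum_eq_zero fun p _ => ?_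
  obtain ⟨⟨i, j⟩, hij⟩ := p
  funext x
  show (pairMat (spinProj Q) i j *ᵥ laughlin N Q) x = 0
  rw [pairMat_mulVec (ne_of_lt hij)]
  have hne : (∏ k ∈ (univ.erase i).erase j, (Real.sqrt (Q.choose (x k : ℕ)) : ℂ)) ≠ 0 :=
    Finset.prod_ne_zero_iff.2 fun k _ => sqrt_choose_ne_zero (x k)
  have h := coeff_merge_energy (ne_of_lt hij) (laughlin N Q) x
  rw [toPoly_laughlin hQ, map_sub, map_mul, map_mul, merge_pderiv_cubes hij,
    merge_pderiv_cubes hij, mul_zero, mul_zero, sub_zero, coeff_zero] at h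
  rw [(mul_eq_zero.1 h.symm).resolve_left (neg_ne_zero.2 hne), mul_zero]

/-- At flux `3 (N - 1)` the fermionic zero states are the multiples of the Laughlin vector. -/
theorem eq_smul_laughlin {v : (Fin N → Fin (3 * (N - 1) + 1)) → ℂ} (hv : IsAntisym v)
    (h : ham (spinProj (3 * (N - 1))) N *ᵥ v = 0) :
    ∃ c : ℂ, v = c • laughlin N (3 * (N - 1)) := by
  obtain ⟨c, hc⟩ := eq_C_mul_cubes (degreeOf_toPoly v) (fun i j hij => by
      rw [rename_toPoly hv, Equiv.Perm.sign_swap hij]; simp)
    (fun i j hij => merge_energy_eq_zero h hij)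
  refine ⟨c, funext fun x => ?_⟩
  have := congrArg (coeff (toExp x)) hc
  rw [coeff_toPoly, coeff_C_mul] at this
  rw [Pi.smul_apply, smul_eq_mul, laughlin, ← mul_div_assoc, ← this,
    mul_div_cancel_right₀ _ (weight_ne_zero x)]

/-- The fermionic zero states at flux `3 (N - 1)`. -/
theorem zero_states_iff {v : (Fin N → Fin (3 * (N - 1) + 1)) → ℂ} (hv : IsAntisym v) :
    ham (spinProj (3 * (N - 1))) N *ᵥ v = 0 ↔ ∃ c : ℂ, v = c • laughlin N (3 * (N - 1)) := by
  refine ⟨eq_smul_laughlin hv, ?_⟩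
  rintro ⟨c, rfl⟩
  rw [Matrix.mulVec_smul, ham_mulVec_laughlin le_rfl, smul_zero]

end Vale.Agent.P359.Laughlin
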