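import Mathlib

/-!
P359: an antisymmetric polynomial that vanishes to second order on every diagonal and has the
degree of the cubed Vandermonde product is a multiple of that product.
-/

noncomputable section

namespace Vale.Agent.P359.Laughlin

open MvPolynomial Finset

variable {N : ℕ}

/-- The polynomials in one variable per particle. -/
abbrev Pol (N : ℕ) := MvPolynomial (Fin N) ℂ

/-- The pairs `a < b`. -/
def ordPairs (N : ℕ) : Finset (Fin N × Fin N) := univ.filter fun p => p.1 < p.2

/-- The cube of the Vandermonde product. -/
def cubes (N : ℕ) : Pol N := ∏ p ∈ ordPairs N, (X p.2 - X p.1) ^ 3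

/-- Putting the variable `i` equal to the variable `j`. -/
def merge (i j : Fin N) : Pol N →ₐ[ℂ] Pol N := rename (Function.update id i j)

/-- Reading a polynomial as a polynomial in the variable `i`. -/
def inVar (i : Fin N) : Pol N →ₐ[ℂ] Polynomial (Pol N) :=
  aeval fun k => if k = i then Polynomial.X else Polynomial.C (X k)

theorem inVar_derivative (i : Fin N) (f : Pol N) :
    Polynomial.derivative (inVar i f) = inVar i (pderiv i f) := by
  induction f using MvPolynomial.induction_on with
  | C a =>
    rw [pderiv_C, map_zero, ← MvPolynomial.algebraMap_eq, AlgHom.commutes,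
      Polynomial.algebraMap_apply, Polynomial.derivative_C]
  | add p q hp hq => simp only [map_add, hp, hq]
  | mul_X p k hp =>
    have hk : Polynomial.derivative (inVar i (X k : Pol N)) = inVar i (pderiv i (X k)) := by
      by_cases h : k = i
      · subst h; simp [inVar]
      · simp [inVar, h, pderiv_X_of_ne h]
    rw [map_mul (inVar i) p (X k), Polynomial.derivative_mul, hp, hk, pderiv_mul,
      map_add (inVar i), map_mul (inVar i), map_mul (inVar i)]

theorem eval_inVar (i j : Fin N) (f : Pol N) :
    (inVar i f).eval (X j) = merge i j f := by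
  induction f using MvPolynomial.induction_on with
  | C a =>
    have h : algebraMap ℂ (Polynomial (Pol N)) a = Polynomial.C (C a) := rfl
    simp [inVar, merge, h]
  | add p q hp hq => simp [hp, hq]
  | mul_X p k hp =>
    rw [map_mul, Polynomial.eval_mul, hp, map_mul]
    congr 1
    by_cases h : k = i
    · subst h; simp [inVar, merge]
    · simp [inVar, merge, h]

theorem eval_inVar_self (i : Fin N) (f : Pol N) : (inVar i f).eval (X i) = f := by
  rw [eval_inVar]
  have : Function.update (id : Fin N → Fin N) i i = id := Function.update_eq_self i id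
  simp [merge, this, rename_id]

/-- The chain rule for the merged variable. -/
theorem pderiv_merge {i j : Fin N} (hij : i ≠ j) (f : Pol N) :
    pderiv j (merge i j f) = merge i j (pderiv i f) + merge i j (pderiv j f) := by
  induction f using MvPolynomial.induction_on with
  | C a => simp [merge]
  | add p q hp hq => simp only [map_add, hp, hq]; ring
  | mul_X p k hp =>
    simp only [map_mul, pderiv_mul, map_add, hp]
    have hk : pderiv j (merge i j (X k : Pol N)) =
        merge i j (pderiv i (X k)) + merge i j (pderiv j (X k)) := by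
      by_cases h : k = i
      · subst h; simp [merge, pderiv_X_of_ne hij]
      · by_cases h' : k = j
        · subst h'; simp [merge, h, pderiv_X_of_ne h]
        · simp [merge, h, pderiv_X_of_ne h, pderiv_X_of_ne h']
    rw [hk]; ring

theorem pderiv_rename_equiv (e : Equiv.Perm (Fin N)) (i : Fin N) (f : Pol N) :
    pderiv (e i) (rename e f) = rename e (pderiv i f) := by
  induction f using MvPolynomial.induction_on with
  | C a => simp
  | add p q hp hq => simp only [map_add, hp, hq]
  | mul_X p k hp =>
    simp only [map_mul, pderiv_mul, map_add, hp, rename_X]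
    by_cases h : k = i
    · subst h; simp
    · simp [pderiv_X_of_ne h, pderiv_X_of_ne (e.injective.ne h)]

theorem merge_swap (i j : Fin N) (f : Pol N) :
    merge i j (rename (Equiv.swap i j) f) = merge i j f := by
  simp only [merge, rename_rename]
  congr 1
  congr 1
  funext k
  by_cases h : k = i
  · subst h
    simp only [Function.comp_apply, Equiv.swap_apply_left, Function.update_self]
    by_cases h' : j = k
    · subst h'; simp
    · simp [h']
  · by_cases h' : k = j
    · subst h'; simp [h]
    · simp [Equiv.swap_apply_of_ne_of_ne h h', h]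

/-- Antisymmetry and first order vanishing give third order vanishing. -/
theorem cube_dvd {i j : Fin N} (hij : i ≠ j) {f : Pol N}
    (hanti : rename (Equiv.swap i j) f = -f)
    (h1 : merge i j (X i * pderiv i f - X j * pderiv j f) = 0) :
    (X i - X j) ^ 3 ∣ f := by
  have two : ∀ g : Pol N, g = -g → g = 0 := fun g hg => by
    have : (2 : Pol N) * g = 0 := by linear_combination hg
    exact (mul_eq_zero.1 this).resolve_left two_ne_zero
  have s0 : merge i j f = 0 := two _ (by
    have := congrArg (merge i j) hanti
    rwa [merge_swap, map_neg] at this)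
  have swi : ∀ g : Pol N, rename (Equiv.swap i j) g = -g →
      merge i j (pderiv i g) = -merge i j (pderiv j g) := fun g hg => by
    have e := congrArg (fun p => merge i j (pderiv i p)) hg
    simp only [map_neg] at e
    have e' : pderiv i (rename (Equiv.swap i j) g) =
        rename (Equiv.swap i j) (pderiv j g) := by
      have := pderiv_rename_equiv (Equiv.swap i j) j g
      rwa [Equiv.swap_apply_right] at this
    rw [e', merge_swap] at e
    linear_combination e
  have hXi : merge i j (X i : Pol N) = X j := by simp [merge]
  have hXj : merge i j (X j : Pol N) = X j := by simp [merge, hij.symm]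
  have s1 : merge i j (pderiv i f) = 0 := by
    rw [map_sub, map_mul, map_mul, hXi, hXj, ← mul_sub] at h1
    have h := (mul_eq_zero.1 h1).resolve_left (X_ne_zero j)
    have h2 := swi f hanti
    exact two _ (by linear_combination h + h2)
  have s2 : merge i j (pderiv j f) = 0 := by
    have h2 := swi f hanti
    rw [s1] at h2
    linear_combination h2
  have s3 : merge i j (pderiv i (pderiv i f)) = 0 := by
    have a := pderiv_merge hij (pderiv i f)
    have b := pderiv_merge hij (pderiv j f)
    rw [s1, map_zero] at a
    rw [s2, map_zero] at b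
    have e := congrArg (fun p => merge i j (pderiv i (pderiv i p))) hanti
    simp only [map_neg] at e
    have e1 := pderiv_rename_equiv (Equiv.swap i j) j f
    rw [Equiv.swap_apply_right] at e1
    have e2 := pderiv_rename_equiv (Equiv.swap i j) j (pderiv j f)
    rw [Equiv.swap_apply_right] at e2
    rw [e1, e2, merge_swap] at e
    have c : merge i j (pderiv i (pderiv j f)) = merge i j (pderiv j (pderiv i f)) := by
      have : ∀ p : Pol N, pderiv i (pderiv j p) = pderiv j (pderiv i p) := by
        intro p
        induction p using MvPolynomial.induction_on with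
        | C a => simp
        | add p q hp hq => simp only [map_add, hp, hq]
        | mul_X p k hp =>
          simp only [pderiv_mul, map_add, hp]
          by_cases hi : k = i
          · subst hi; simp [pderiv_X_of_ne hij]
          · by_cases hj : k = j
            · subst hj; simp [pderiv_X_of_ne hi]
            · simp [pderiv_X_of_ne hi, pderiv_X_of_ne hj]
      rw [this]
    exact two _ (by linear_combination (-1 : Pol N) * a + b + c + e)
  by_cases hf : inVar i f = 0
  · have := eval_inVar_self i f
    rw [hf, Polynomial.eval_zero] at this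
    rw [← this]; exact dvd_zero _
  have hroot : ∀ m ≤ 2, (Polynomial.derivative^[m] (inVar i f)).IsRoot (X j) := by
    intro m hm
    interval_cases m <;>
      simp [Polynomial.IsRoot, inVar_derivative, eval_inVar, s0, s1, s3]
  have h3 := Polynomial.lt_rootMultiplicity_of_isRoot_iterate_derivative hf hroot
  have hd : (Polynomial.X - Polynomial.C (X j)) ^ 3 ∣ inVar i f :=
    (Polynomial.le_rootMultiplicity_iff hf).1 h3
  have := Polynomial.eval_dvd (x := (X i : Pol N)) hd
  simpa [eval_inVar_self] using this

theorem prime_X_sub_X {i j : Fin N} (h : i ≠ j) : Prime (X j - X i : Pol N) := by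
  let F : Pol N →ₐ[ℂ] Pol N := aeval fun k => if k = j then X j + X i else X k
  let G : Pol N →ₐ[ℂ] Pol N := aeval fun k => if k = j then X j - X i else X k
  have hFG : F.comp G = AlgHom.id ℂ (Pol N) := by
    refine algHom_ext fun k => ?_
    by_cases hk : k = j
    · subst hk; simp [F, G, h]
    · simp [F, G, hk]
  have hGF : G.comp F = AlgHom.id ℂ (Pol N) := by
    refine algHom_ext fun k => ?_
    by_cases hk : k = j
    · subst hk; simp [F, G, h]
    · simp [F, G, hk]
  have e := (MulEquiv.prime_iff (AlgEquiv.ofAlgHom G F hGF hFG).toMulEquiv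
    (p := (X j : Pol N))).2 X_prime
  simpa [G] using e

theorem not_dvd_other {p q : Fin N × Fin N} (hp : p.1 < p.2) (hq : q.1 < q.2) (hne : p ≠ q) :
    ¬ (X p.2 - X p.1 : Pol N) ∣ X q.2 - X q.1 := by
  intro hd
  obtain ⟨l, hl, h1, h2⟩ : ∃ l, (l = q.1 ∨ l = q.2) ∧ l ≠ p.1 ∧ l ≠ p.2 := by
    by_cases ha : q.1 ≠ p.1 ∧ q.1 ≠ p.2
    · exact ⟨q.1, Or.inl rfl, ha⟩
    · refine ⟨q.2, Or.inr rfl, ?_⟩
      rcases not_and_or.1 ha with hc | hc <;> rw [not_not] at hc <;>
        constructor <;> intro hb
      · omega
      · exact hne (Prod.ext hc.symm hb.symm)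
      · omega
      · omega
  have := map_dvd (eval fun k => if k = l then (1 : ℂ) else 0) hd
  rcases hl with rfl | rfl
  · simp [h1.symm, h2.symm, hq.ne'] at this
  · simp [h1.symm, h2.symm, hq.ne] at this

theorem cubes_dvd {f : Pol N}
    (h : ∀ p ∈ ordPairs N, (X p.2 - X p.1) ^ 3 ∣ f) : cubes N ∣ f := by
  refine Finset.prod_dvd_of_isRelPrime (fun p hp q hq hne => ?_) h
  simp only [ordPairs, coe_filter, mem_univ, true_and, Set.mem_ofPred_eq] at hp hq
  exact (((prime_X_sub_X hp.ne).irreducible.isRelPrime_iff_not_dvd).2
    (not_dvd_other hp hq hne)).pow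

theorem degreeOf_X_sub_X {i j : Fin N} (h : i ≠ j) (v : Fin N) :
    degreeOf v (X j - X i : Pol N) = if v = i ∨ v = j then 1 else 0 := by
  refine le_antisymm ?_ ?_
  · refine (degreeOf_sub_le v _ _).trans ?_
    classical
    simp only [degreeOf_X]
    split_ifs <;> simp_all
  · split_ifs with hv
    · rw [degreeOf_eq_sup]
      have key : ∀ k, (k = i ∨ k = j) →
          coeff (Finsupp.single k 1) (X j - X i : Pol N) ≠ 0 := by
        classical
        rintro k (rfl | rfl) <;>
          simp [coeff_X, Finsupp.single_eq_single_iff, h, h.symm]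
      refine le_trans (le_of_eq ?_) (Finset.le_sup (mem_support_iff.2 (key v hv)))
      simp
    · exact Nat.zero_le _

theorem cubes_ne_zero : cubes N ≠ 0 :=
  Finset.prod_ne_zero_iff.2 fun p hp => pow_ne_zero 3
    (prime_X_sub_X (mem_filter.1 hp).2.ne).ne_zero

theorem degreeOf_cubes (v : Fin N) : degreeOf v (cubes N) = 3 * (N - 1) := by
  classical
  have key : ∀ s : Finset (Fin N × Fin N), s ⊆ ordPairs N →
      degreeOf v (∏ p ∈ s, (X p.2 - X p.1 : Pol N) ^ 3) =
        3 * (s.filter fun p => v = p.1 ∨ v = p.2).card := by
    intro s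
    induction s using Finset.induction_on with
    | empty => intro _; simp
    | insert p s hps ih =>
      intro hs
      rw [Finset.insert_subset_iff] at hs
      have hp := (mem_filter.1 hs.1).2
      have n1 : (X p.2 - X p.1 : Pol N) ≠ 0 := (prime_X_sub_X hp.ne).ne_zero
      rw [Finset.prod_insert hps, degreeOf_mul_eq (pow_ne_zero 3 n1)
        (Finset.prod_ne_zero_iff.2 fun q hq => pow_ne_zero 3
          (prime_X_sub_X (mem_filter.1 (hs.2 hq)).2.ne).ne_zero),
        ih hs.2, degreeOf_pow_eq v _ 3 n1, degreeOf_X_sub_X hp.ne, Finset.filter_insert]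
      split_ifs with hc
      · rw [Finset.card_insert_of_notMem (fun hm => hps (mem_filter.1 hm).1)]; ring
      · ring
  rw [cubes, key _ subset_rfl]
  congr 1
  rw [show N - 1 = (univ.erase v).card by simp]
  refine Finset.card_nbij' (fun p => if p.1 = v then p.2 else p.1)
    (fun k => if k < v then (k, v) else (v, k)) ?_ ?_ ?_ ?_
  · intro p hp
    simp only [ordPairs, mem_filter, mem_univ, true_and, coe_filter, Set.mem_ofPred_eq] at hp
    simp only [coe_erase, Set.mem_sdiff, Set.mem_singleton_iff, coe_univ, Set.mem_univ, true_and]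
    split_ifs <;> omega
  · intro k hk
    simp only [coe_erase, Set.mem_sdiff, Set.mem_singleton_iff, coe_univ, Set.mem_univ,
      true_and] at hk
    simp only [ordPairs, mem_filter, mem_univ, true_and, coe_filter, Set.mem_ofPred_eq]
    split_ifs with hlt
    · exact ⟨hlt, Or.inr rfl⟩
    · exact ⟨lt_of_le_of_ne (not_lt.1 hlt) (Ne.symm hk), Or.inl rfl⟩
  · intro p hp
    simp only [ordPairs, mem_filter, mem_univ, true_and, coe_filter, Set.mem_ofPred_eq] at hp
    rcases hp with ⟨hlt, rfl | rfl⟩
    · simp [hlt.le.not_gt]
    · simp [hlt.ne, hlt]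
  · intro k hk
    simp only [coe_erase, Set.mem_sdiff, Set.mem_singleton_iff, coe_univ, Set.mem_univ,
      true_and] at hk
    by_cases hlt : k < v
    · simp [hlt, hlt.ne]
    · simp [hlt]

/-- The uniqueness statement for polynomials. -/
theorem eq_C_mul_cubes {f : Pol N} (hdeg : ∀ v, degreeOf v f ≤ 3 * (N - 1))
    (hanti : ∀ i j : Fin N, i ≠ j → rename (Equiv.swap i j) f = -f)
    (h1 : ∀ i j : Fin N, i < j → merge i j (X i * pderiv i f - X j * pderiv j f) = 0) :
    ∃ c : ℂ, f = C c * cubes N := by
  obtain ⟨g, rfl⟩ := cubes_dvd (f := f) fun p hp => by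
    have hlt := (mem_filter.1 hp).2
    have := cube_dvd hlt.ne (hanti _ _ hlt.ne) (h1 _ _ hlt)
    rw [← neg_sub, neg_pow]
    exact (IsUnit.mul_left_dvd (isUnit_one.neg.pow 3)).2 this
  by_cases hg : g = 0
  · exact ⟨0, by simp [hg]⟩
  have hz : ∀ v, degreeOf v g = 0 := fun v => by
    have := hdeg v
    rw [degreeOf_mul_eq cubes_ne_zero hg, degreeOf_cubes] at this
    omega
  refine ⟨coeff 0 g, ?_⟩
  have : g = C (coeff 0 g) := by
    refine MvPolynomial.ext _ _ fun m => ?_
    classical
    by_cases hm : m = 0
    · subst hm; simp
    · rw [coeff_C, if_neg (Ne.symm hm)]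
      by_contra hne
      refine hm (Finsupp.ext fun v => ?_)
      have := hz v
      rw [degreeOf_eq_sup] at this
      exact Nat.le_zero.1 (this ▸ Finset.le_sup (f := fun m : Fin N →₀ ℕ => m v)
        (mem_support_iff.2 hne))
  rw [mul_comm]
  conv_lhs => rw [this]

/-- The product itself vanishes to second order on every diagonal. -/
theorem merge_pderiv_cubes {i j : Fin N} (hij : i < j) (k : Fin N) :
    merge i j (pderiv k (cubes N)) = 0 := by
  classical
  have hmem : (i, j) ∈ ordPairs N := by simp [ordPairs, hij]
  rw [cubes, ← Finset.mul_prod_erase _ _ hmem, pderiv_mul, pderiv_pow]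
  have : merge i j (X j - X i : Pol N) = 0 := by simp [merge, hij.ne']
  simp [this]

end Vale.Agent.P359.Laughlin
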